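import Vale.Agent.P354YJ.GinM

/-!
Pointwise algebra for causal vectors of Kerr in ingoing coordinates, and the deformation tensors
of the rotation and of the ingoing null field.
-/

open scoped ContDiff
open Set Filter Topology

noncomputable section

namespace Vale.Agent.P354NK

open Vale.Agent.P354n (R4)
open Vale.Agent.P354I (X dT dP rnd Sg rm rp)
open Vale.Agent.P354R (Del)
open Vale.Agent.P354XE (xs pt rd gin dr dq kf eT Om pi)
open Vale.Agent.P354XA
open Vale.Agent.P354YJ (Sg_pos gin_n0 gin_eT gin_cd gin_lin)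

variable {M a : ℝ} {p v w : R4}

/-- The ingoing principal null field. -/
def n0 (p : R4) : R4 := (1, -(rd p)⁻¹ • p.2)

theorem gin_ww (M a : ℝ) (p w : R4) : gin M a p w w = kf a p w ^ 2 - 2 * kf a p w * w.1 +
    Sg a (rd p) (xs p) * rnd (xs p) (xs w) (xs w) +
    2 * M * rd p / Sg a (rd p) (xs p) * kf a p w ^ 2 := by
  simp only [gin, kf]; ring

theorem gin_T (M a : ℝ) (p w : R4) :
    gin M a p eT w = -w.1 + 2 * M * rd p / Sg a (rd p) (xs p) * kf a p w := by
  rw [P354YJ.gin_symm, gin_eT]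

theorem gin_N (h : rd p ≠ 0) (w : R4) : gin M a p (n0 p) w = -kf a p w := by
  rw [P354YJ.gin_symm, n0, gin_n0 h]

theorem om2 (p : R4) : Om 2 p = (0, -p.2.2.1, p.2.1, 0) := rfl

theorem gin_P (h : rd p ≠ 0) (w : R4) :
    (rd p ^ 2 + a ^ 2) * gin M a p eT w + a * gin M a p (Om 2 p) w =
      Sg a (rd p) (xs p) * dr p w - Del M a (rd p) * kf a p w := by
  have S0 := (Sg_pos a (lt_of_le_of_ne (rd_nonneg p) h.symm)).ne'
  have k := rd_sq p
  have k1 : dr p (Om 2 p) = 0 := by rw [dr_eq, om2]; simp only [ip]; ring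
  have k2 : dq p (Om 2 p) = 1 - p.2.2.2 ^ 2 / rd p ^ 2 := by
    rw [dq_eq, om2]; simp only [ip] at k ⊢; field_simp; linear_combination -k
  have k3 : rnd (xs p) (xs (Om 2 p)) (xs w) = dq p w := by
    rw [rnd_eq, dq_eq, om2]; simp only [ip]; ring
  have k4 : (Om 2 p).1 = 0 := rfl
  have e : a ^ 2 * (p.2.2.2 ^ 2 / rd p ^ 2) = Sg a (rd p) (xs p) - rd p ^ 2 := by rw [Sg_eq]; ring
  rw [gin_T, gin, kf, kf, k1, k2, k3, k4, Del]
  generalize p.2.2.2 ^ 2 / rd p ^ 2 = z at *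
  generalize Sg a (rd p) (xs p) = S at *
  field_simp
  linear_combination (S * dr p w + 2 * M * rd p * (w.1 + dr p w - a * dq p w) -
    S * a * dq p w) * e

theorem zero_of (h : rd p ≠ 0) (h1 : w.1 = 0) (h2 : kf a p w = 0)
    (h3 : rnd (xs p) (xs w) (xs w) ≤ 0) : w = 0 := by
  obtain ⟨k1, k2⟩ := rnd_nonneg h w
  have k4 := le_antisymm h3 k1
  have k5 : dq p w = 0 := pow_eq_zero_iff two_ne_zero |>.1 (le_antisymm (k4 ▸ k2) (sq_nonneg _))
  have k3 : dr p w = 0 := by rw [kf, h1, k5] at h2; linarith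
  have k6 := ip_split h w
  rw [k3, k4, ip] at k6
  have s1 := mul_self_nonneg w.2.1
  have s2 := mul_self_nonneg w.2.2.1
  have s3 := mul_self_nonneg w.2.2.2
  exact Prod.ext h1 (Prod.ext (mul_self_eq_zero.1 (by linarith))
    (Prod.ext (mul_self_eq_zero.1 (by linarith)) (mul_self_eq_zero.1 (by linarith))))

/-- A causal vector with k w.1 ≤ 0 is a multiple of n0. -/
theorem kf_zero (hM : 0 ≤ M) (h : 0 < rd p) (h1 : gin M a p w w ≤ 0) (h2 : kf a p w * w.1 ≤ 0) :
    kf a p w = 0 ∧ rnd (xs p) (xs w) (xs w) ≤ 0 := by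
  have S := Sg_pos a h
  have k1 := mul_nonneg S.le (rnd_nonneg h.ne' w).1
  have k2 : 0 ≤ 2 * M * rd p / Sg a (rd p) (xs p) * kf a p w ^ 2 := by positivity
  have k3 := sq_nonneg (kf a p w)
  rw [gin_ww] at h1
  exact ⟨pow_eq_zero_iff two_ne_zero |>.1 (le_antisymm (by linarith) k3),
    nonpos_of_mul_nonpos_right (by linarith) S⟩

theorem zero_t (hM : 0 ≤ M) (h : 0 < rd p) (h1 : gin M a p w w ≤ 0) (h2 : w.1 = 0) : w = 0 :=
  have k := kf_zero hM h h1 (by rw [h2, mul_zero])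
  zero_of h.ne' h2 k.1 k.2

theorem ww_e (h : 0 < rd p) (he : gin M a p eT w = 0) : Sg a (rd p) (xs p) * gin M a p w w =
    (Sg a (rd p) (xs p) - 2 * M * rd p) * kf a p w ^ 2 +
      Sg a (rd p) (xs p) ^ 2 * rnd (xs p) (xs w) (xs w) := by
  have S := (Sg_pos a h).ne'
  have e : w.1 = 2 * M * rd p / Sg a (rd p) (xs p) * kf a p w := by rw [gin_T] at he; linarith
  rw [gin_ww, e]
  field_simp
  ring

theorem zero_k (hM : 0 ≤ M) (h : 0 < rd p) (h1 : gin M a p w w ≤ 0) (he : gin M a p eT w = 0)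
    (hk : kf a p w = 0) : w = 0 :=
  zero_t hM h h1 (by rw [gin_T, hk] at he; linarith)

theorem zero_far (hM : 0 ≤ M) (h : 2 * M < rd p) (h1 : gin M a p w w ≤ 0)
    (he : gin M a p eT w = 0) : w = 0 := by
  have h0 : 0 < rd p := by linarith
  have S := Sg_pos a h0
  have k1 := mul_nonneg (sq_nonneg (Sg a (rd p) (xs p))) (rnd_nonneg h0.ne' w).1
  have k2 := ww_e h0 he
  have k3 : 0 < Sg a (rd p) (xs p) - 2 * M * rd p := by nlinarith [Sg_ge a p]
  have k4 := mul_nonpos_of_nonneg_of_nonpos S.le h1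
  exact zero_k hM h0 h1 he (pow_eq_zero_iff two_ne_zero |>.1 (le_antisymm
    (nonpos_of_mul_nonpos_right (by linarith) k3) (sq_nonneg _)))

theorem dr_ej (h : 0 < rd p) (he : gin M a p eT w = 0) (hj : gin M a p (Om 2 p) w = 0) :
    Sg a (rd p) (xs p) * dr p w = Del M a (rd p) * kf a p w := by
  have := gin_P (M := M) (a := a) h.ne' w
  rw [he, hj] at this
  linarith

theorem zero_ext (hM : 0 ≤ M) (h : 0 < rd p) (hD : 0 < Del M a (rd p)) (h1 : gin M a p w w ≤ 0)
    (he : gin M a p eT w = 0) (hj : gin M a p (Om 2 p) w = 0) : w = 0 := by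
  have S0 := Sg_pos a h
  have k0 := dr_ej h he hj
  have k1 := (rnd_nonneg h.ne' w).1
  have k2 := ww_e h he
  have k3 := dq_sq h.ne' w
  have k4 := mul_nonpos_of_nonneg_of_nonpos S0.le h1
  have e : Sg a (rd p) (xs p) * w.1 = 2 * M * rd p * kf a p w := by
    rw [gin_T] at he; field_simp at he; linarith
  have e2 : kf a p w = w.1 + dr p w - a * dq p w := rfl
  have e3 := Sg_eq a p
  refine zero_k hM h h1 he (pow_eq_zero_iff two_ne_zero |>.1 (le_antisymm
    (nonpos_of_mul_nonpos_right ?_ hD) (sq_nonneg _)))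
  rw [Del] at k0 ⊢
  generalize p.2.2.2 ^ 2 / rd p ^ 2 = z at *
  generalize Sg a (rd p) (xs p) = S at *
  generalize rnd (xs p) (xs w) (xs w) = n at *
  generalize kf a p w = k at *
  generalize dq p w = q at *
  have e4 : a * q * S = a ^ 2 * (1 - z) * k := by
    linear_combination S * e2 + e + k0 - k * e3
  have e5 : a ^ 2 * (1 - z) * k ^ 2 ≤ S ^ 2 * n := by
    rcases le_or_gt (a ^ 2 * (1 - z)) 0 with u | u
    · nlinarith [mul_nonneg (sq_nonneg S) k1, mul_nonneg (neg_nonneg.2 u) (sq_nonneg k)]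
    · refine le_of_mul_le_mul_left ?_ u
      have : (a * q * S) ^ 2 = (a ^ 2 * (1 - z) * k) ^ 2 := by rw [e4]
      nlinarith [mul_le_mul_of_nonneg_left k3 (show 0 ≤ a ^ 2 * S ^ 2 by positivity)]
  have : (rd p ^ 2 - 2 * M * rd p + a ^ 2) * k ^ 2 =
      (S - 2 * M * rd p) * k ^ 2 + a ^ 2 * (1 - z) * k ^ 2 := by linear_combination -k ^ 2 * e3
  linarith

/-! ### Derivatives -/

theorem gin_fd (h : 0 < rd p) (M a : ℝ) (v w : R4) {d q n S : ℝ}
    (hd : d = ip v w / rd p - dr p w * dr p v / rd p)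
    (hq : q = (v.2.1 * w.2.2.1 - v.2.2.1 * w.2.1) / rd p ^ 2 - 2 * dq p w * dr p v / rd p)
    (hn : n = -2 * ip w w * dr p v / rd p ^ 3 -
      2 * dr p w * (ip v w / rd p ^ 3 - 2 * dr p w * dr p v / rd p ^ 3))
    (hS : S = 2 * rd p * dr p v +
      a ^ 2 * (2 * p.2.2.2 * v.2.2.2 / rd p ^ 2 - 2 * p.2.2.2 ^ 2 * dr p v / rd p ^ 3)) :
    fderiv ℝ (fun x => gin M a x w w) p v = 2 * dr p w * d - 2 * a * (d * dq p w + dr p w * q) +
      S * rnd (xs p) (xs w) (xs w) + Sg a (rd p) (xs p) * n + 2 * a ^ 2 * dq p w * q +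
      2 * M * (dr p v * Sg a (rd p) (xs p) - rd p * S) / Sg a (rd p) (xs p) ^ 2 * kf a p w ^ 2 +
      4 * M * rd p / Sg a (rd p) (xs p) * kf a p w * (d - a * q) := by
  have S0 := (Sg_pos a h).ne'
  have l : HasDerivAt (fun s : ℝ => p + s • v) v 0 := by
    simpa using ((hasDerivAt_id (0 : ℝ)).smul_const v).const_add p
  have c : ∀ {f : R4 → ℝ}, DifferentiableAt ℝ f p →
      HasDerivAt (fun s : ℝ => f (p + s • v)) (fderiv ℝ f p v) 0 := fun {f} hf =>
    HasFDerivAt.comp_hasDerivAt_of_eq (f := fun s : ℝ => p + s • v) 0 hf.hasFDerivAt l (by simp)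
  have r := c ((rd_cd (n := 1) h.ne').differentiableAt one_ne_zero)
  rw [rd_fd h.ne'] at r
  have r0 : rd (p + (0 : ℝ) • v) ≠ 0 := by simpa using h.ne'
  have r2 : rd (p + (0 : ℝ) • v) ^ 2 ≠ 0 := pow_ne_zero 2 r0
  have x : HasDerivAt (fun s : ℝ => (p + s • v).2.1) v.2.1 0 := by
    simpa using ((hasDerivAt_id (0 : ℝ)).mul_const v.2.1).const_add p.2.1
  have y : HasDerivAt (fun s : ℝ => (p + s • v).2.2.1) v.2.2.1 0 := by
    simpa using ((hasDerivAt_id (0 : ℝ)).mul_const v.2.2.1).const_add p.2.2.1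
  have z : HasDerivAt (fun s : ℝ => (p + s • v).2.2.2) v.2.2.2 0 := by
    simpa using ((hasDerivAt_id (0 : ℝ)).mul_const v.2.2.2).const_add p.2.2.2
  have A : HasDerivAt (fun s : ℝ => ip (p + s • v) w) (ip v w) 0 :=
    ((x.mul_const _).add (y.mul_const _)).add (z.mul_const _)
  have D : HasDerivAt (fun s : ℝ => dr (p + s • v) w) d 0 := by
    simp only [dr_eq]
    refine (A.div r r0).congr_deriv ?_
    simp only [hd, dr_eq, zero_smul, add_zero]; field_simp
  have Q : HasDerivAt (fun s : ℝ => dq (p + s • v) w) q 0 := by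
    simp only [dq_eq]
    refine (((x.mul_const _).sub (y.mul_const _)).div (r.pow 2) r2).congr_deriv ?_
    simp only [hq, dq_eq, zero_smul, add_zero, Pi.pow_apply, Pi.sub_apply]; field_simp; ring
  have N : HasDerivAt (fun s : ℝ => rnd (xs (p + s • v)) (xs w) (xs w)) n 0 := by
    simp only [rnd_eq]
    refine (((hasDerivAt_const _ _).div (r.pow 2) r2).sub ((A.div (r.pow 2) r2).mul
      (A.div (r.pow 2) r2))).congr_deriv ?_
    simp only [hn, dr_eq, zero_smul, add_zero, Pi.pow_apply, Pi.div_apply]; field_simp; ring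
  have T : HasDerivAt (fun s : ℝ => Sg a (rd (p + s • v)) (xs (p + s • v))) S 0 := by
    simp only [Sg_eq]
    refine ((r.pow 2).add (((z.pow 2).div (r.pow 2) r2).const_mul _)).congr_deriv ?_
    simp only [hS, zero_smul, add_zero, Pi.pow_apply]; field_simp; ring
  have K : HasDerivAt (fun s : ℝ => kf a (p + s • v) w) (d - a * q) 0 :=
    (D.const_add _).sub (Q.const_mul _)
  refine (c ((gin_cd h M a w w).differentiableAt (by simp))).unique ?_
  refine ((((((D.mul D).const_add _).sub (((D.mul Q).add (Q.mul D)).const_mul _)).add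
    (T.mul N)).add ((Q.mul Q).const_mul _)).add (((r.const_mul _).div T (by simpa using S0)).mul
    (K.mul K))).congr_deriv ?_
  simp only [zero_smul, add_zero, Pi.mul_apply, Pi.div_apply]
  field_simp
  ring

theorem om_fd (p w : R4) : DifferentiableAt ℝ (Om 2) p ∧ fderiv ℝ (Om 2) p w = Om 2 w := by
  have x := (hasFDerivAt_id (𝕜 := ℝ) p).snd.fst
  have y := (hasFDerivAt_id (𝕜 := ℝ) p).snd.snd.fst
  have k : HasFDerivAt (Om 2) _ p := (hasFDerivAt_const (0 : ℝ) p).prodMk (y.neg.prodMk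
    (x.prodMk (hasFDerivAt_const (0 : ℝ) p)))
  exact ⟨k.differentiableAt, by rw [k.fderiv]; simp [om2]⟩

/-- The rotation is a Killing field. -/
theorem pi_om (h : 0 < rd p) (M a : ℝ) (w : R4) : pi (gin M a) (Om 2) p w = 0 := by
  have k1 : dr p (Om 2 p) = 0 := by rw [dr_eq, om2]; simp only [ip]; ring
  have S0 := (Sg_pos a h).ne'
  rw [P354XE.pi, gin_fd h M a _ w rfl rfl rfl rfl, (om_fd p w).2, k1, gin]
  generalize Sg a (rd p) (xs p) = S at *
  simp only [kf, dr_eq, dq_eq, rnd_eq, om2, ip]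
  field_simp
  ring

theorem n0_fd (h : rd p ≠ 0) (w : R4) : DifferentiableAt ℝ n0 p ∧
    fderiv ℝ n0 p w = (0, (dr p w / rd p ^ 2) • p.2 - (rd p)⁻¹ • w.2) := by
  have d := ((rd_cd (n := 1) h).differentiableAt one_ne_zero).hasFDerivAt
  have k : HasFDerivAt n0 _ p := (hasFDerivAt_const (1 : ℝ) p).prodMk
    (((hasDerivAt_inv h).comp_hasFDerivAt p d).neg.smul (hasFDerivAt_id (𝕜 := ℝ) p).snd)
  refine ⟨k.differentiableAt, ?_⟩
  rw [k.fderiv, ← rd_fd h]
  simp [div_eq_inv_mul, sub_eq_neg_add]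

/-- The deformation tensor of the ingoing null field. -/
theorem pi_n0 (h : 0 < rd p) (M a : ℝ) (w : R4) : pi (gin M a) n0 p w =
    -(rd p * rnd (xs p) (xs w) (xs w)) + (2 * M * rd p ^ 2 / Sg a (rd p) (xs p) ^ 2 -
      M / Sg a (rd p) (xs p)) * kf a p w ^ 2 := by
  have k := rd_sq p
  have h0 := h.ne'
  have k0 : ip p (n0 p) = -rd p := by
    simp only [ip, n0, Prod.smul_fst, Prod.smul_snd, smul_eq_mul] at k ⊢
    field_simp
    linear_combination k
  have k1 : dr p (n0 p) = -1 := by rw [dr_eq, k0, neg_div, div_self h0]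
  have k2 : ip (n0 p) w = -dr p w := by
    simp only [dr_eq, ip, n0, Prod.smul_fst, Prod.smul_snd, smul_eq_mul]; ring
  set u : R4 := (0, (dr p w / rd p ^ 2) • p.2 - (rd p)⁻¹ • w.2) with hu
  have u1 : ip p u = 0 := by
    simp only [hu, dr_eq, ip, Prod.smul_fst, Prod.smul_snd, Prod.fst_sub, Prod.snd_sub,
      smul_eq_mul] at k ⊢
    field_simp
    linear_combination -(p.2.1 * w.2.1 + p.2.2.1 * w.2.2.1 + p.2.2.2 * w.2.2.2) * k
  have u2 : dr p u = 0 := by rw [dr_eq, u1, zero_div]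
  have u3 : dq p u = -dq p w / rd p := by
    simp only [hu, dq_eq, Prod.smul_fst, Prod.smul_snd, Prod.fst_sub, Prod.snd_sub, smul_eq_mul]
    field_simp
    ring
  have u4 : rnd (xs p) (xs u) (xs w) = -rnd (xs p) (xs w) (xs w) / rd p := by
    rw [rnd_eq, rnd_eq, u1]
    simp only [hu, dr_eq, ip, Prod.smul_fst, Prod.smul_snd, Prod.fst_sub, Prod.snd_sub,
      smul_eq_mul]
    field_simp
    ring
  have u5 : kf a p u = a * dq p w / rd p := by
    rw [kf, u2, u3, show u.1 = 0 from rfl]; ring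
  have S0 := (Sg_pos a h).ne'
  rw [P354XE.pi, gin_fd h M a _ w (d := 0) (q := dq p w / rd p)
    (n := 2 * rnd (xs p) (xs w) (xs w) / rd p) (S := -2 * rd p), (n0_fd h0 w).2, ← hu, k1, gin,
    u2, u3, u4, u5, show u.1 = 0 from rfl]
  · field_simp
    ring
  · rw [k1, k2]; ring
  · rw [k1, dq_eq]
    simp only [n0, Prod.smul_fst, Prod.smul_snd, smul_eq_mul]
    field_simp
    ring
  · rw [k1, k2, ip_split h0 w]
    field_simp
    ring
  · rw [k1]
    simp only [n0, Prod.smul_snd, smul_eq_mul]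
    field_simp
    ring

/-- The red shift. -/
theorem pi_null (h : 0 < rd p) (h1 : gin M a p w w = 0) (he : gin M a p eT w = 0) :
    Sg a (rd p) (xs p) * pi (gin M a) n0 p w = (rd p - M) * kf a p w ^ 2 := by
  have S0 := (Sg_pos a h).ne'
  have k := ww_e h he
  rw [h1] at k
  rw [pi_n0 h]
  generalize Sg a (rd p) (xs p) = S at *
  field_simp
  linear_combination rd p * k

end Vale.Agent.P354NK
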