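import Vale.Agent.P354NK.Alg
import Vale.Agent.P354YA.Nis

/-!
NKM: the jets of Kerr are uniformly in the interior of the set with a margin.
-/

open scoped ContDiff
open Set Filter Topology

noncomputable section

namespace Vale.Agent.P354NK

open Vale.Agent.P354n (R4)
open Vale.Agent.P354I (Sg rm rp)
open Vale.Agent.P354R (Del)
open Vale.Agent.P354XE (xs rd gin dr dq kf eT Om Lo)
open Vale.Agent.P354XA (rd_sq rd_eq rd_cont rd_nonneg ip_Lo dr_Lo dq_Lo Lo_fst lo1 rnd_eq dr_eq dq_eq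
  Sg_eq gin_bil norm_le)
open Vale.Agent.P354XV (Jet jet)
open Vale.Agent.P354YJ (Sg_pos gin_cd gin_n0)
open Vale.Agent.P354YN
open Vale.Agent.P354YA
open Vale.Agent.P354YT (Pm al bp sg al_nonneg sg_mem Del_pos)

variable {M a : ℝ} {p v : R4} {c : Pm}

theorem no_eq (p : R4) : P354YN.No p = P354YT.No p := by
  simp only [P354YN.No, P354YT.No, neg_smul]

theorem gin_No (h : rd p ≠ 0) (v : R4) : gin M a p (P354YT.No p) v = -kf a p v := gin_N h v

theorem gin_L (h : 0 < rd p) (hD : Del M a (rd p) ≠ 0) (v : R4) : gin M a p (Lo M a p) v =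
    -kf a p v + 2 * Sg a (rd p) (xs p) / Del M a (rd p) * dr p v := by
  have S0 := (Sg_pos a h).ne'
  have h0 := h.ne'
  have e1 : P354XA.ip p (Lo M a p) = rd p := by
    have := dr_Lo (M := M) (a := a) h0
    rwa [dr_eq, div_eq_one_iff_eq h0] at this
  have e0 : P354XA.ip p v = rd p * dr p v := by rw [dr_eq]; field_simp
  have e2 : p.2.2.2 ^ 2 / rd p ^ 2 * a ^ 2 = Sg a (rd p) (xs p) - rd p ^ 2 := by rw [Sg_eq]; ring
  have e3 : 2 * M * rd p = rd p ^ 2 + a ^ 2 - Del M a (rd p) := by unfold Del; ring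
  rw [gin, kf, kf, rnd_eq, ip_Lo h0, e1, e0, dr_Lo h0, dq_Lo h0, Lo_fst, lo1, e3]
  generalize p.2.2.2 ^ 2 / rd p ^ 2 = z at *
  generalize Sg a (rd p) (xs p) = S at *
  generalize Del M a (rd p) = D at *
  have e4 : S = rd p ^ 2 + z * a ^ 2 := by linarith
  field_simp
  rw [e4]
  ring

theorem kf_T (a : ℝ) (p : R4) : kf a p eT = 1 ∧ dr p eT = 0 := by
  simp [kf, dr_eq, dq_eq, P354XA.ip, eT]

theorem kf_L (h : 0 < rd p) (hD : Del M a (rd p) ≠ 0) :
    kf a p (Lo M a p) = 2 * Sg a (rd p) (xs p) / Del M a (rd p) := by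
  rw [kf, dr_Lo h.ne', dq_Lo h.ne', Lo_fst, lo1, Sg_eq]
  field_simp
  ring

theorem kf_No (a : ℝ) (o : 0 < rd p) : kf a p (P354YT.No p) = 0 := by
  simp only [kf, dr_eq, dq_eq, P354XA.ip, P354YT.No, Prod.smul_fst, Prod.smul_snd, smul_eq_mul]
  have q := rd_sq p
  rw [P354XA.ip] at q
  field_simp
  linear_combination rd p * q

theorem gin_LL (h : 0 < rd p) (hD : Del M a (rd p) ≠ 0) : gin M a p (Lo M a p) (Lo M a p) = 0 := by
  rw [gin_L h hD, kf_L h hD, dr_Lo h.ne']; ring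

theorem gin_LN_T (h : 0 < rd p) (hD : Del M a (rd p) ≠ 0) :
    gin M a p (Lo M a p + P354YT.No p) eT = -2 := by
  rw [(gin_bil M a p).add_left, gin_L h hD, gin_No h.ne', (kf_T a p).1, (kf_T a p).2]; ring

theorem coef (x : ℝ) : 0 ≤ al x ∧ al x ≤ 1 ∧ bp x + bp (-x) = 1 - al x := by
  have e : al x = 1 - sg x - sg (-x) := rfl
  refine ⟨al_nonneg x, by linarith [(sg_mem x).1, (sg_mem (-x)).1], ?_⟩
  rw [bp, bp, P354YT.al_neg, e]; ring

theorem neg_mix {s x y : ℝ} (h0 : 0 ≤ s) (h1 : s ≤ 1) (hx : x < 0) (hy : y < 0) :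
    s * x + (1 - s) * y < 0 := by
  rcases h0.eq_or_lt with rfl | k
  · linarith
  · linarith [mul_neg_of_pos_of_neg k hx, mul_nonpos_of_nonneg_of_nonpos (sub_nonneg.2 h1) hy.le]

/-- X is future directed. -/
theorem gin_X (h : |c.a| < c.M) (k : rp c.M c.a < rd p) (o : 0 < rd p) :
    gin c.M c.a p (Lo c.M c.a p + P354YN.No p) (c.X p) < 0 := by
  have D := Del_pos h k
  have B := gin_bil c.M c.a p
  obtain ⟨e1, e2, e3⟩ := coef (c.xi (rd p))
  have S : 0 < 2 * Sg c.a (rd p) (xs p) / Del c.M c.a (rd p) := by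
    have := Sg_pos c.a o; positivity
  have n := kf_No c.a o
  rw [no_eq, X_eq, B.add_right, B.add_right, B.smul_right, B.smul_right, B.smul_right,
    gin_LN_T o D.ne', B.add_left, B.add_left, gin_LL o D.ne', P354YJ.gin_symm _ _ _ (Lo ..),
    gin_No o.ne', gin_No o.ne', n, kf_L o D.ne']
  refine (neg_mix e1 e2 (show (-2 : ℝ) < 0 by norm_num) (neg_lt_zero.2 S)).trans_eq' ?_
  rw [← e3, ca, cl, cn]; ring

theorem slit_pos {z : ℂ} (h : z ∈ Complex.slitPlane) : 0 < ‖z‖ + z.re := by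
  rcases lt_or_ge 0 z.re with k | k
  · linarith [norm_nonneg z]
  · have := Complex.abs_re_lt_norm.2 (h.resolve_left k.not_gt)
    linarith [neg_abs_le z.re]

theorem mq_ev {x : A3} (h : x ∈ U3) (s : iS (WJ (tr x.2.1)) = 1) :
    ∀ᶠ y : ℝ × A3 in 𝓝 (0, x), Mq y.1 y.2 := by
  have π : ContinuousAt (fun y : ℝ × A3 => y.2) (0, x) := continuousAt_snd
  have lt : ∀ {f : A3 → ℝ}, ContinuousAt f x → 0 < f x →
      ∀ᶠ y : ℝ × A3 in 𝓝 (0, x), y.1 ≤ f y.2 := fun f k =>
    (continuousAt_fst.eventually_lt (f.comp π) k).mono fun _ => le_of_lt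
  have w := wj3 h.1
  have l : ContinuousAt (fun y : A3 => -2 * (y.1 : ℂ) / lam (WJ (tr y.2.1))) x :=
    (SA.dv (contDiffAt_const.mul (SA.cx contDiffAt_fst)) (w.la (ok3 h.1)) (ok3 h.1).l).continuousAt
  have q := (qj_at h.1).continuousAt
  have r := Complex.continuous_re
  have d : ‖iS (WJ (tr x.2.1)) - 1‖ < min d0 (1 / 4) / 2 := by
    rw [s, sub_self, norm_zero]; exact half_pos (lt_min d0_pos (by norm_num))
  filter_upwards [((MS.det (SA.g0 j3)).continuousAt.comp π).eventually (gt_mem_nhds h.1.2.1),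
    lt w.ij.continuousAt.norm (norm_pos_iff.2 (ok3 h.1).j),
    (((w.is (ok3 h.1).j).continuousAt.sub continuousAt_const).norm.comp π).eventually
      (gt_mem_nhds d), lt (l.norm.add (r.continuousAt.comp l)) (slit_pos h.1.2.2.2.2.2),
    lt (q.norm.add (r.continuousAt.comp q)) (slit_pos h.2.1),
    lt (mu_at h.1 h.2.1).continuousAt h.2.2] with y a b e f g i using ⟨a, b, e.le, f, g, i⟩

theorem rd_lip (p q : R4) : |rd p - rd q| ≤ 2 * dist p q := by
  have e : xs p - xs q = xs (p - q) := by ext i; fin_cases i <;> simp [xs]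
  refine (abs_norm_sub_norm_le (xs p) (xs q)).trans ?_
  rw [e, dist_eq_norm]
  generalize p - q = v
  have k := rd_sq v
  have s : ∀ x : ℝ, |x| ≤ ‖v‖ → x * x ≤ ‖v‖ ^ 2 := fun x h => by
    rw [← sq, ← sq_abs]; gcongr
  have n := norm_snd_le v
  refine le_of_sq_le_sq ?_ (by positivity)
  linarith [s _ ((norm_fst_le v.2).trans n), s _ (((norm_fst_le v.2.2).trans
    (norm_snd_le _)).trans n), s _ (((norm_snd_le v.2.2).trans (norm_snd_le _)).trans n),
    show ‖xs v‖ ^ 2 = v.2.1 * v.2.1 + v.2.2.1 * v.2.2.1 + v.2.2.2 * v.2.2.2 from k, sq_nonneg ‖v‖]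

theorem nkm (F : NF) : NKM := by
  intro c h
  have M0 := h.1.M0
  have K : IsCompact {p : R4 | p.1 = 0 ∧ |dd c p| ≤ 3} := by
    refine Metric.isCompact_of_isClosed_isBounded ((isClosed_eq continuous_fst
      continuous_const).inter (isClosed_le (dd_cont c).abs continuous_const))
      (isBounded_iff_forall_norm_le.2 ⟨c.R1 + 3, fun q hq => ?_⟩)
    have := norm_le q
    rw [hq.1, abs_zero] at this
    linarith [(abs_le.1 hq.2).2, show dd c q = rd q - c.R1 from rfl]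
  have E := K.eventually_forall_of_forall_eventually (x₀ := ((0, 0) : ℝ × Jet 4 × R4))
    (P := fun y p => Mq y.1 (c.M, tr (jet 4 (gin c.M c.a) p + y.2.1), c.X p + y.2.2)) fun p hp => by
      obtain ⟨k, o⟩ := h.out (p := p) (by linarith [(abs_le.1 hp.2).1])
      obtain ⟨k1, k2, -⟩ := F.2.2.2.2 c.M c.M c.a 1 p _ one_pos (by ring) h.1.sub k
        (gin_X h.1.sub k o)
      have t1 : SA (fun z : (ℝ × Jet 4 × R4) × R4 => jet 4 (gin c.M c.a) z.2) ((0, 0), p) :=
        ContDiffAt.comp (g := jet 4 (gin c.M c.a)) _ (jet_at 4 (gin_cd o _ _)) contDiffAt_snd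
      have t2 : SA (fun z : (ℝ × Jet 4 × R4) × R4 => c.X z.2) ((0, 0), p) :=
        ContDiffAt.comp (g := c.X) _ (X_at h.1.sub k o) contDiffAt_snd
      have t : ContinuousAt (fun z : (ℝ × Jet 4 × R4) × R4 => (z.1.1, c.M,
          tr (jet 4 (gin c.M c.a) z.2 + z.1.2.1), c.X z.2 + z.1.2.2)) ((0, 0), p) :=
        continuousAt_fst.fst.prodMk (continuousAt_const.prodMk ((SA.tr
          (t1.add contDiffAt_fst.snd.fst)).continuousAt.prodMk
          (t2.continuousAt.add continuousAt_fst.snd.snd)))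
      refine t.eventually (p := fun y : ℝ × A3 => Mq y.1 y.2) ?_
      simpa only [Prod.fst_zero, Prod.snd_zero, add_zero, tr_jet] using mq_ev k1 k2
  obtain ⟨ε, e0, hε⟩ := Metric.eventually_nhds_iff.1 E
  have d0 : 0 < min (ε / 2) (1 / 2) := lt_min (half_pos e0) one_half_pos
  refine ⟨ε / 2, half_pos e0, _, d0, fun p _ z hz => ?_⟩
  have z1 : dist z.1 p ≤ 1 / 2 := ((le_max_left _ _).trans hz).trans (min_le_right _ _)
  have z2 : dist z.2 (jet 4 (gin c.M c.a) p, c.X p) < ε :=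
    (((le_max_right _ _).trans hz).trans (min_le_left _ _)).trans_lt (half_lt_self e0)
  rcases le_or_gt |dd c p| 3 with k | k
  · have e : jet 4 (gin c.M c.a) (0, p.2) = jet 4 (gin c.M c.a) p := by
      rw [← F.1.2.2 4 c.M c.a (-p.1) p]; congr 1; ext <;> simp [eT]
    have := hε (y := (ε / 2, z.2 - (jet 4 (gin c.M c.a) p, c.X p))) (max_lt (by
      rw [dist_zero_right, Real.norm_of_nonneg (half_pos e0).le]; exact half_lt_self e0) (by
      rwa [dist_zero_right, ← dist_eq_norm])) (0, p.2) ⟨rfl, k⟩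
    rw [e, show c.X (0, p.2) = c.X p from rfl] at this
    simp only [Prod.fst_sub, Prod.snd_sub, add_sub_cancel] at this
    exact Or.inr this
  · have := abs_sub_abs_le_abs_sub (dd c p) (dd c z.1)
    rw [show dd c p - dd c z.1 = rd p - rd z.1 by unfold dd; ring] at this
    exact Or.inl (show 2 ≤ |dd c z.1| by linarith [rd_lip p z.1, dist_comm p z.1])

end Vale.Agent.P354NK
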