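import Vale.Agent.P354NK.Alg
import Vale.Agent.P354XY.Defs

/-!
NK: causal vectors and deformation tensors near Kerr in r0 ≤ r ≤ R, by compactness.
-/

open scoped ContDiff
open Set Filter Topology

noncomputable section

namespace Vale.Agent.P354NK

open Vale.Agent.P354n (R4)
open Vale.Agent.P354I (X dT dP rnd Sg rm rp)
open Vale.Agent.P354R (Del)
open Vale.Agent.P354XE (Tw xs pt rd gin dr dq kf eT Om pi Bd)
open Vale.Agent.P354XA
open Vale.Agent.P354XY (Gd NK)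
open Vale.Agent.P354YJ (Sg_pos gin_cd)

variable {M a r0 R η : ℝ} {p u v w : R4} {n : ℕ} {f f' : R4 → R4 → ℝ} {Y : R4 → R4} {g : Tw}

/-! ### Compactness -/

/-- Continuous, stationary functions which are homogeneous of degree n. -/
structure Hq (n : ℕ) (f : R4 → R4 → ℝ) : Prop where
  c : ∀ q : R4 × R4, 0 < rd q.1 → ContinuousAt (fun q : R4 × R4 => f q.1 q.2) q
  t : ∀ p u, 0 < rd p → f p u = f (0, p.2) u
  h : ∀ p u (s : ℝ), 0 < rd p → 0 < s → f p (s • u) = s ^ n * f p u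

theorem Hq.max (h : Hq n f) (h' : Hq n f') : Hq n fun p u => max (f p u) (f' p u) :=
  ⟨fun q k => (h.c q k).max (h'.c q k), fun p u k => by rw [h.t p u k, h'.t p u k],
    fun p u s k l => by rw [h.h p u s k l, h'.h p u s k l, mul_max_of_nonneg _ _ (pow_pos l n).le]⟩

theorem Hq.neg (h : Hq n f) : Hq n fun p u => -f p u :=
  ⟨fun q k => (h.c q k).neg, fun p u k => by rw [h.t p u k],
    fun p u s k l => by rw [h.h p u s k l, mul_neg]⟩

theorem Hq.abs (h : Hq n f) : Hq n fun p u => |f p u| := h.max h.neg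

theorem Hq.nm (h : Hq n f) : Hq (n + 1) fun p u => f p u * ‖u‖ :=
  ⟨fun q k => (h.c q k).mul continuousAt_snd.norm, fun p u k => by rw [h.t p u k],
    fun p u s k l => by rw [h.h p u s k l, norm_smul, Real.norm_of_nonneg l.le]; ring⟩

theorem Hq.zero (h : Hq (n + 1) f) (hp : 0 < rd p) : f p 0 = 0 := by
  have k := h.h p 0 2 hp two_pos
  have l : (1 : ℝ) < 2 ^ (n + 1) := one_lt_pow₀ one_lt_two n.succ_ne_zero
  rw [smul_zero] at k
  exact (mul_eq_zero.1 (show (2 ^ (n + 1) - 1) * f p 0 = 0 by linarith)).resolve_left (by linarith)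

/-- The shell at t = 0, times the unit sphere. -/
def Kc (r0 R : ℝ) : Set (R4 × R4) := {q | q.1.1 = 0 ∧ r0 ≤ rd q.1 ∧ rd q.1 ≤ R ∧ ‖q.2‖ = 1}

theorem kc_cpt (r0 R : ℝ) : IsCompact (Kc r0 R) := by
  have c : Continuous fun q : R4 × R4 => rd q.1 := rd_cont.comp continuous_fst
  refine Metric.isCompact_of_isClosed_isBounded ((isClosed_eq continuous_fst.fst
    continuous_const).inter ((isClosed_le continuous_const c).inter ((isClosed_le c
    continuous_const).inter (isClosed_eq continuous_snd.norm continuous_const))))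
    (isBounded_iff_forall_norm_le.2 ⟨max R 1, fun q hq => max_le_max ?_ hq.2.2.2.le⟩)
  have := norm_le q.1
  rw [hq.1, abs_zero] at this
  linarith [hq.2.2.1]

theorem Hq.red (h : Hq n f) (h0 : 0 < r0) (h1 : r0 ≤ rd p) (h2 : rd p ≤ R) (hu : u ≠ 0) :
    ∃ q ∈ Kc r0 R, f p u = f q.1 q.2 * ‖u‖ ^ n := by
  have k := norm_pos_iff.2 hu
  refine ⟨((0, p.2), ‖u‖⁻¹ • u), ⟨rfl, h1, h2, norm_smul_inv_norm hu⟩, ?_⟩
  rw [← h.t p _ (h0.trans_le h1), mul_comm, ← h.h p _ _ (h0.trans_le h1) k, smul_inv_smul₀ k.ne']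

theorem Hq.on (h : Hq n f) (h0 : 0 < r0) :
    ContinuousOn (fun q : R4 × R4 => f q.1 q.2) (Kc r0 R) :=
  fun q hq => (h.c q (h0.trans_le hq.2.1)).continuousWithinAt

theorem Hq.low (h : Hq n f) (h0 : 0 < r0) (hp : ∀ p u, r0 ≤ rd p → rd p ≤ R → u ≠ 0 → 0 < f p u) :
    ∀ᶠ c in 𝓝[>] (0 : ℝ), ∀ p u, r0 ≤ rd p → rd p ≤ R → u ≠ 0 → c * ‖u‖ ^ n < f p u := by
  obtain ⟨c, c0, hc⟩ := (kc_cpt r0 R).exists_forall_le' (h.on h0) (a := 0) fun q hq =>
    hp _ _ hq.2.1 hq.2.2.1 (norm_pos_iff.1 (by rw [hq.2.2.2]; exact one_pos))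
  filter_upwards [Ioo_mem_nhdsGT c0] with b hb p u h1 h2 hu
  obtain ⟨q, hq, e⟩ := h.red h0 h1 h2 hu
  exact e ▸ mul_lt_mul_of_pos_right (hb.2.trans_le (hc q hq)) (pow_pos (norm_pos_iff.2 hu) n)

theorem Hq.up (h : Hq (n + 1) f) (h0 : 0 < r0) (R : ℝ) :
    ∀ᶠ B in atTop, ∀ p u, r0 ≤ rd p → rd p ≤ R → f p u ≤ B * ‖u‖ ^ (n + 1) := by
  obtain ⟨c, hc⟩ := (kc_cpt r0 R).exists_bound_of_continuousOn (h.on h0)
  filter_upwards [eventually_ge_atTop c] with b hb p u h1 h2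
  rcases eq_or_ne u 0 with rfl | hu
  · simp [h.zero (h0.trans_le h1)]
  obtain ⟨q, hq, e⟩ := h.red h0 h1 h2 hu
  exact e ▸ mul_le_mul_of_nonneg_right (((le_abs_self _).trans (hc q hq)).trans hb) (by positivity)

theorem gin_ct (M a : ℝ) {T : Type} [TopologicalSpace T] {x y z : T → R4} {t : T}
    (hx : ContinuousAt x t) (hy : ContinuousAt y t) (hz : ContinuousAt z t) (h : 0 < rd (x t)) :
    ContinuousAt (fun t => gin M a (x t) (y t) (z t)) t := by
  have c : ContinuousAt (fun t => rd (x t)) t := rd_cont.continuousAt.comp hx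
  have k1 := h.ne'
  have k2 := pow_ne_zero 2 k1
  have k3 := (Sg_pos a h).ne'
  simp only [gin, kf, dr_eq, dq_eq, rnd_eq, Sg_eq, ip] at k3 ⊢
  fun_prop (disch := assumption)

theorem hq_G (M a : ℝ) : Hq 2 fun p u => gin M a p u u :=
  ⟨fun _ k => gin_ct M a continuousAt_fst continuousAt_snd continuousAt_snd k, fun _ _ _ => rfl,
    fun p u s _ _ => by rw [(gin_bil M a p).smul_left, (gin_bil M a p).smul_right]; ring⟩

theorem hq_1 : Hq 1 fun _ u => u.1 :=
  ⟨fun _ _ => continuousAt_snd.fst, fun _ _ _ => rfl, fun _ _ _ _ _ => by simp⟩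

/-- Almost causal vectors. -/
theorem Hq.dich (h : Hq 1 f) (h0 : 0 < r0)
    (hp : ∀ p u, r0 ≤ rd p → rd p ≤ R → u ≠ 0 → gin M a p u u ≤ 0 → 0 < f p u) :
    ∀ᶠ c in 𝓝[>] (0 : ℝ), ∀ p u, r0 ≤ rd p → rd p ≤ R → gin M a p u u ≤ c * ‖u‖ ^ 2 →
      c * ‖u‖ ≤ f p u := by
  filter_upwards [((hq_G M a).max h.nm).low h0 (R := R) fun p u h1 h2 hu => lt_max_iff.2
    ((lt_or_ge 0 _).imp_right fun k => mul_pos (hp p u h1 h2 hu k) (norm_pos_iff.2 hu))]
    with c hc p u h1 h2 k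
  rcases eq_or_ne u 0 with rfl | hu
  · simp [h.zero (n := 0) (h0.trans_le h1)]
  refine (lt_of_mul_lt_mul_right ?_ (norm_nonneg u)).le
  simpa only [sq, mul_assoc] using (lt_max_iff.1 (hc p u h1 h2 hu)).resolve_left k.not_gt

/-! ### Stationary vector fields -/

/-- Stationary fields of class C^1. -/
def Fl (Y : R4 → R4) : Prop := (∀ p, 0 < rd p → ContDiffAt ℝ 1 Y p) ∧ ∀ p, Y p = Y (0, p.2)

theorem Fl.hq (h : Fl Y) (M a : ℝ) : Hq 1 fun p u => gin M a p (Y p) u :=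
  ⟨fun q k => gin_ct M a continuousAt_fst ((h.1 _ k).continuousAt.comp continuousAt_fst)
    continuousAt_snd k, fun p _ _ => by rw [h.2 p]; rfl,
    fun p u s _ _ => by rw [(gin_bil M a p).smul_right, pow_one]⟩

theorem Fl.hd (h : Fl Y) : Hq 1 fun p u => ‖fderiv ℝ Y p u‖ := by
  refine ⟨fun q k => ((((h.1 _ k).continuousAt_fderiv one_ne_zero).comp
    continuousAt_fst).clm_apply continuousAt_snd).norm, fun p u _ => ?_, fun p u s _ k => by
      rw [map_smul, norm_smul, Real.norm_of_nonneg k.le, pow_one]⟩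
  have e : Y = fun x => Y (x + (-p.1, 0)) := funext fun x => by
    rw [h.2 x, h.2 (x + _)]; simp
  rw [e, fderiv_comp_add_right, ← e]
  congr 3
  ext <;> simp

theorem Fl.hn (h : Fl Y) : Hq 1 fun p u => ‖Y p‖ * ‖u‖ :=
  Hq.nm (n := 0) (f := fun p _ => ‖Y p‖) ⟨fun q k => ((h.1 _ k).continuousAt.comp
    continuousAt_fst).norm, fun p _ _ => by rw [h.2 p], fun _ _ _ _ _ => by simp⟩

theorem bd0 (h : Bd 1 (g - gin M a) p η) (v w : R4) :
    |g p v w - gin M a p v w| ≤ η * (‖v‖ * ‖w‖) := by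
  have k := h 0 zero_le_one v w
  rwa [norm_iteratedFDeriv_zero] at k

theorem pi_sub (hp : 0 < rd p) (hg : Gd g p) (h : Bd 1 (g - gin M a) p η) (Y : R4 → R4) (w : R4) :
    |pi g Y p w - pi (gin M a) Y p w| ≤
      η * (‖w‖ * ‖w‖) * ‖Y p‖ / 2 + η * (‖fderiv ℝ Y p w‖ * ‖w‖) := by
  obtain ⟨G, h1, h2, -⟩ := hg
  have d : DifferentiableAt ℝ (fun x => g x w w) p :=
    ((h1.clm_apply (differentiableAt_const w)).clm_apply
      (differentiableAt_const w)).congr_of_eventuallyEq (h2.mono fun x hx => hx w w)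
  have d' := (gin_cd hp M a w w).differentiableAt (by simp)
  have k := h 1 le_rfl w w
  rw [norm_iteratedFDeriv_one] at k
  have e : fderiv ℝ (fun x => (g - gin M a) x w w) p = _ := fderiv_sub d d'
  have k1 := (ContinuousLinearMap.le_of_opNorm_le _ (e ▸ k) (Y p))
  rw [sub_apply, Real.norm_eq_abs] at k1
  have k2 := bd0 h (fderiv ℝ Y p w) w
  rw [abs_le] at k1 k2 ⊢
  unfold P354XE.pi
  constructor <;> linarith [k1.1, k1.2, k2.1, k2.2]

/-- The bounds for a field. -/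
def Fb (M a B : ℝ) (Y : R4 → R4) (p : R4) : Prop :=
  ∀ (g : Tw) (η : ℝ), Gd g p → 0 ≤ η → η ≤ 1 → Bd 1 (g - gin M a) p η → g p (Y p) (Y p) ≤ B ∧
    ∀ w, |g p (Y p) w - gin M a p (Y p) w| ≤ B * η * ‖w‖ ∧ |g p (Y p) w| ≤ B * ‖w‖ ∧
      |pi g Y p w - pi (gin M a) Y p w| ≤ B * η * ‖w‖ ^ 2

theorem Fl.fb (h : Fl Y) (M a : ℝ) (h0 : 0 < r0) (R : ℝ) :
    ∀ᶠ B in atTop, ∀ p, r0 ≤ rd p → rd p ≤ R → Fb M a B Y p := by
  obtain ⟨b, ⟨⟨k1, k2⟩, k3⟩, b1⟩ := (((((h.hq M a).abs.up (n := 0) h0 R).and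
    (h.hd.up (n := 0) h0 R)).and (h.hn.up (n := 0) h0 R)).and (eventually_ge_atTop 1)).exists
  simp only [zero_add, pow_one] at k1 k2 k3
  filter_upwards [eventually_ge_atTop (2 * b * b)] with B hB p h1 h2 g η hg e0 e1 hb
  have l3 : ‖Y p‖ ≤ b := by simpa [eT] using k3 p eT h1 h2
  have b2 : 2 * b ≤ B := by nlinarith
  have l4 : ∀ w, |g p (Y p) w - gin M a p (Y p) w| ≤ b * η * ‖w‖ := fun w =>
    (bd0 hb _ w).trans (by rw [mul_comm b, mul_assoc]; gcongr)
  have l5 : ∀ w, |g p (Y p) w| ≤ 2 * b * ‖w‖ := fun w => by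
    have := abs_sub_abs_le_abs_sub (g p (Y p) w) (gin M a p (Y p) w)
    have : b * η * ‖w‖ ≤ b * 1 * ‖w‖ := by gcongr
    linarith [l4 w, k1 p w h1 h2]
  refine ⟨((le_abs_self _).trans (l5 _)).trans (le_trans (by gcongr) hB), fun w =>
    ⟨(l4 w).trans (by gcongr; linarith), (l5 w).trans (by gcongr), ?_⟩⟩
  have l6 : η * (‖w‖ * ‖w‖) * ‖Y p‖ ≤ η * (‖w‖ * ‖w‖) * b := by gcongr
  have l7 : η * (‖fderiv ℝ Y p w‖ * ‖w‖) ≤ η * (b * ‖w‖ * ‖w‖) := by
    gcongr; exact k2 p w h1 h2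
  have l8 : 2 * b * η * ‖w‖ ^ 2 ≤ B * η * ‖w‖ ^ 2 := by gcongr
  have l9 : 0 ≤ b * η * ‖w‖ ^ 2 := by positivity
  linarith [pi_sub (h0.trans_le h1) hg hb Y w]

theorem fl_T : Fl fun _ => eT := ⟨fun _ _ => contDiffAt_const, fun _ => rfl⟩

theorem fl_om : Fl (Om 2) := ⟨fun _ _ => by simp only [funext om2]; fun_prop, fun _ => rfl⟩

theorem fl_n0 : Fl n0 :=
  ⟨fun _ k => contDiffAt_const.prodMk (((rd_cd k.ne').inv k.ne').neg.smul contDiffAt_snd),
    fun _ => rfl⟩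

theorem Fl.smul (h : Fl Y) {φ : ℝ → ℝ} (hφ : ContDiff ℝ 1 φ) : Fl fun p => φ (rd p) • Y p :=
  ⟨fun p k => (hφ.contDiffAt.comp p (rd_cd k.ne')).smul (h.1 p k), fun p => congrArg (φ (rd p) • ·) (h.2 p)⟩

theorem pi_smul (h : Fl Y) {φ : ℝ → ℝ} (hφ : ContDiff ℝ 1 φ) (hp : 0 < rd p) (w : R4) :
    pi (gin M a) (fun p => φ (rd p) • Y p) p w = φ (rd p) * pi (gin M a) Y p w +
      deriv φ (rd p) * dr p w * gin M a p (Y p) w := by
  have d := ((hφ.differentiable one_ne_zero (rd p)).hasDerivAt.comp_hasFDerivAt p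
    ((rd_cd (n := 1) hp.ne').differentiableAt one_ne_zero).hasFDerivAt).smul
    ((h.1 p hp).differentiableAt one_ne_zero).hasFDerivAt
  unfold P354XE.pi
  rw [show fderiv ℝ (fun p => φ (rd p) • Y p) p = _ from d.fderiv, ← rd_fd hp.ne']
  simp only [map_smul, add_apply, smul_apply,
    ContinuousLinearMap.smulRight_apply, (gin_bil M a p).add_left, (gin_bil M a p).smul_left,
    smul_eq_mul, Function.comp]
  ring

theorem hq_pi (M a : ℝ) {φ : ℝ → ℝ} (hφ : ContDiff ℝ 1 φ) :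
    Hq 2 (pi (gin M a) fun p => φ (rd p) • n0 p) := by
  have e := fun p w (k : 0 < rd p) => (pi_smul (M := M) (a := a) fl_n0 hφ k w).trans
    (by rw [pi_n0 k, gin_N k.ne'])
  refine ⟨fun q k => ?_, fun p u k => (e p u k).trans (e (0, p.2) u k).symm, fun p u s k _ => ?_⟩
  · have c : ContinuousAt (fun q : R4 × R4 => rd q.1) q :=
      rd_cont.continuousAt.comp continuousAt_fst
    refine ContinuousAt.congr ?_ ((c.eventually (lt_mem_nhds k)).mono fun x hx =>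
      (e x.1 x.2 hx).symm)
    have c1 := hφ.continuous
    have c2 := hφ.continuous_deriv le_rfl
    have k1 := k.ne'
    have k2 := pow_ne_zero 2 k1
    have k3 := (Sg_pos a k).ne'
    have k4 := pow_ne_zero 2 k3
    simp only [kf, dr_eq, dq_eq, rnd_eq, Sg_eq, ip] at k3 k4 ⊢
    fun_prop (disch := assumption)
  · rw [e p _ k, e p _ k]
    simp only [kf, dr_eq, dq_eq, rnd_eq, ip, Prod.smul_fst, Prod.smul_snd, smul_eq_mul]
    ring

/-! ### The cut off functions -/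

/-- The cut off in 3 M < r < 4 M. -/
def ch (M r : ℝ) : ℝ := Real.smoothTransition (4 - r / M)

theorem ch_cd (M : ℝ) : ContDiff ℝ 1 (ch M) :=
  Real.smoothTransition.contDiff.comp (contDiff_const.sub (contDiff_id.div_const M))

theorem ch_one (hM : 0 < M) {r : ℝ} (h : r ≤ 3 * M) : ch M r = 1 :=
  Real.smoothTransition.one_of_one_le (by linarith [(div_le_iff₀ hM).2 h])

theorem ch_zero (hM : 0 < M) {r : ℝ} (h : 4 * M ≤ r) : ch M r = 0 :=
  Real.smoothTransition.zero_of_nonpos (by linarith [(le_div_iff₀ hM).2 h])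

theorem ex_c (h : |a| < M) (h1 : rm M a < r0) : ∃ c : ℝ, ∀ r, r0 ≤ r → r ≤ rp M a →
    0 < r - M - c * Del M a r := by
  obtain ⟨hM, k1, k2, -, -, k5, -⟩ := hor h
  have e : rp M a - M = M - rm M a := by unfold rp rm; ring
  have d : 0 < (rp M a - M) * (r0 - rm M a) := mul_pos (by linarith) (by linarith)
  refine ⟨M / ((rp M a - M) * (r0 - rm M a)), fun r l1 l2 => ?_⟩
  have c0 := div_pos hM d
  have c1 := div_mul_cancel₀ M d.ne'
  rw [k5]
  rcases le_or_gt r M with l | l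
  · have : (rp M a - M) * (r0 - rm M a) ≤ (rp M a - r) * (r - rm M a) :=
      mul_le_mul (by linarith) (by linarith) (by linarith) (by linarith)
    linarith [mul_le_mul_of_nonneg_left this c0.le]
  · linarith [mul_nonneg c0.le (mul_nonneg (sub_nonneg.2 l2) (by linarith : 0 ≤ r - rm M a))]

theorem red_shift (h : |a| < M) (h1 : rm M a < r0) : ∃ φ : ℝ → ℝ, ContDiff ℝ 1 φ ∧
    (∀ r, r ≤ 3 * M → 0 < φ r) ∧ (∀ r, 4 * M ≤ r → φ r = 0) ∧ ∀ p u, r0 ≤ rd p → u ≠ 0 →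
      gin M a p u u = 0 → gin M a p eT u = 0 → gin M a p (ch M (rd p) • Om 2 p) u = 0 →
      0 < pi (gin M a) (fun p => φ (rd p) • n0 p) p u := by
  obtain ⟨c, hc⟩ := ex_c h h1
  obtain ⟨hM, k1, k2, k3, -, k5, -⟩ := hor h
  have x : ContDiff ℝ 1 fun r : ℝ => Real.exp (c * r) := by fun_prop
  have s := x.mul (ch_cd M)
  refine ⟨_, s, fun r k => by rw [ch_one hM k, mul_one]; exact Real.exp_pos _,
    fun r k => by rw [ch_zero hM k, mul_zero], fun p u l hu l1 l2 l3 => ?_⟩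
  have r0 : 0 < rd p := by linarith
  have l4 : rd p ≤ 2 * M := not_lt.1 fun k => hu (zero_far hM.le k l1.le l2)
  rw [ch_one hM (by linarith), one_smul] at l3
  have l5 : rd p ≤ rp M a := not_lt.1 fun k => hu (zero_ext hM.le r0
    (by rw [k5]; exact mul_pos (by linarith) (by linarith)) l1.le l2 l3)
  have l6 := pow_pos (abs_pos.2 fun k => hu (zero_k hM.le r0 l1.le l2 k)) 2
  have l7 : HasDerivAt (fun r => Real.exp (c * r) * ch M r) (Real.exp (c * rd p) * (c * 1))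
      (rd p) := ((hasDerivAt_id' _).const_mul c).exp.congr_of_eventuallyEq
    ((gt_mem_nhds (show rd p < 3 * M by linarith)).mono fun r k => by
      simp only [ch_one hM k.le, mul_one])
  rw [sq_abs] at l6
  refine pos_of_mul_pos_left (b := Sg a (rd p) (xs p)) ?_ (Sg_pos a r0).le
  rw [pi_smul fl_n0 s r0, l7.deriv, ch_one hM (by linarith), gin_N r0.ne']
  refine (mul_pos (mul_pos (Real.exp_pos (c * rd p)) l6) (hc _ l l5)).trans_eq ?_
  linear_combination -Real.exp (c * rd p) * pi_null r0 l1 l2 +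
    Real.exp (c * rd p) * c * kf a p u * dr_ej r0 l2 l3

/-! ### The theorem -/

theorem nk : NK := by
  intro M a r0 R h h1
  obtain ⟨φ, p1, p2, p3, p4⟩ := red_shift h h1
  obtain ⟨hM, k1, -⟩ := hor h
  have h0 : 0 < r0 := k1.trans_lt h1
  have fU := fl_om.smul (ch_cd M)
  have fV := fl_n0.smul p1
  have qE := (fl_T.hq M a).abs
  obtain ⟨B, ⟨⟨bT, bU⟩, bV⟩, B1⟩ := ((((fl_T.fb M a h0 R).and (fU.fb M a h0 R)).and
    (fV.fb M a h0 R)).and (eventually_ge_atTop 1)).exists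
  have c1 := hq_1.abs.dich (M := M) (a := a) (R := R) h0 fun p u l _ hu k =>
    abs_pos.2 fun e => hu (zero_t hM.le (h0.trans_le l) k e)
  have c2 := (qE.max ((fV.hq M a).neg.max hq_1.neg)).dich (M := M) (a := a) (R := R) h0
    fun p u l _ hu k => by
      by_contra! e
      have r0 := h0.trans_le l
      obtain ⟨e1, e2, e3⟩ := (max_le_iff.1 e).imp abs_nonpos_iff.1 max_le_iff.1
      rcases le_or_gt (rd p) (3 * M) with b | b
      · rw [(gin_bil M a p).smul_left, gin_N r0.ne', mul_neg, neg_neg] at e2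
        exact hu (zero_k hM.le r0 k e1 (kf_zero hM.le r0 k (mul_nonpos_of_nonpos_of_nonneg
          (nonpos_of_mul_nonpos_right e2 (p2 _ b)) (neg_nonpos.1 e3))).1)
      · exact hu (zero_far hM.le (by linarith) k e1)
  have c4 := (qE.max (Hq.nm (n := 0) (f := fun p _ => 3 * M - rd p) ⟨fun q _ =>
    continuousAt_const.sub (rd_cont.continuousAt.comp continuousAt_fst), fun _ _ _ => rfl,
    fun _ _ _ _ _ => by simp⟩)).dich (M := M) (a := a) (R := R) h0 fun p u l _ hu k => by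
      by_contra! e
      obtain ⟨e1, e2⟩ := max_le_iff.1 e
      exact hu (zero_far hM.le (by linarith [nonpos_of_mul_nonpos_left e2 (norm_pos_iff.2 hu)]) k
        (abs_nonpos_iff.1 e1))
  have c5 := (((hq_G M a).abs.max (qE.max (fU.hq M a).abs).nm).max (hq_pi M a p1)).low (R := R) h0
    fun p u l _ hu => by
      by_contra! e
      obtain ⟨⟨e1, e2⟩, e3⟩ := (max_le_iff.1 e).imp_left max_le_iff.1
      obtain ⟨e4, e5⟩ := max_le_iff.1 (nonpos_of_mul_nonpos_left e2 (norm_pos_iff.2 hu))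
      exact (p4 p u l hu (abs_nonpos_iff.1 e1) (abs_nonpos_iff.1 e4) (abs_nonpos_iff.1 e5)).not_ge
        e3
  obtain ⟨c, ⟨⟨⟨d1, d2⟩, d4⟩, d5⟩, c0, c1⟩ := ((((c1.and c2).and c4).and c5).and
    (Ioo_mem_nhdsGT one_pos)).exists
  have B0 : 0 < B := by linarith
  refine ⟨_, _, 4 * B / c, 2 / c + B, c / (4 * B), by positivity, by positivity, by positivity,
    fun p k => have k' := lt_of_le_of_ne (rd_nonneg p) k.symm
      ⟨(fU.1 p k').differentiableAt one_ne_zero, (fV.1 p k').differentiableAt one_ne_zero⟩,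
    fun p k => ⟨by rw [ch_zero hM (by linarith), zero_smul], by rw [p3 _ (by linarith), zero_smul]⟩,
    fun g p w η l1 l2 hg e0 e1 hb w1 w2 w3 => ?_⟩
  have r0 := h0.trans_le l1
  have z := norm_nonneg w
  have e2 : B * η ≤ c / 4 := by
    rw [le_div_iff₀ (by positivity)] at e1; linarith only [e1]
  have e3 : η ≤ c / 4 := (le_mul_of_one_le_left e0 B1).trans e2
  have e4 : η ≤ 1 := by linarith only [e3, c1]
  obtain ⟨t1, t2⟩ := bT p l1 l2 g η hg e0 e4 hb
  obtain ⟨u1, u2⟩ := bU p l1 l2 g η hg e0 e4 hb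
  obtain ⟨v1, v2⟩ := bV p l1 l2 g η hg e0 e4 hb
  obtain ⟨t2, -⟩ := t2 w
  obtain ⟨u2, u3, u4⟩ := u2 w
  obtain ⟨v2, v3, v4⟩ := v2 w
  have x1 : B * η * ‖w‖ ≤ c / 4 * ‖w‖ := mul_le_mul_of_nonneg_right e2 z
  have x2 : B * η * ‖w‖ ^ 2 ≤ c / 4 * ‖w‖ ^ 2 := mul_le_mul_of_nonneg_right e2 (sq_nonneg _)
  have x3 : η * (‖w‖ * ‖w‖) ≤ c / 4 * (‖w‖ * ‖w‖) :=
    mul_le_mul_of_nonneg_right e3 (mul_self_nonneg _)
  have x4 : 0 ≤ c * ‖w‖ := mul_nonneg c0.le z
  have x5 : 0 ≤ c * ‖w‖ ^ 2 := mul_nonneg c0.le (sq_nonneg _)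
  obtain ⟨g1, g2⟩ := abs_le.1 (bd0 hb w w)
  have gc : gin M a p w w ≤ c * ‖w‖ ^ 2 := by linarith only [g1, x3, x5, w2]
  have i0 : 0 < 2 / c := div_pos two_pos c0
  have fin : ∀ x, c / 2 * ‖w‖ ≤ x → ‖w‖ ≤ (2 / c + B) * x := fun x k => by
    have := mul_le_mul_of_nonneg_left k i0.le
    rw [← mul_assoc, show 2 / c * (c / 2) = 1 by field_simp] at this
    linarith only [this, mul_nonneg B0.le (show 0 ≤ x by linarith only [k, x4])]
  have big : ∀ x y, 4 * B / c * x ≤ y → y ≤ B * ‖w‖ → x ≤ c / 4 * ‖w‖ := fun x y k k' => by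
    refine le_of_mul_le_mul_left ((k.trans k').trans_eq ?_) (show 0 < 4 * B / c by positivity)
    field_simp
  have a1 := abs_sub_abs_le_abs_sub (gin M a p eT w) (g p eT w)
  have a2 := abs_sub_abs_le_abs_sub (gin M a p (ch M (rd p) • Om 2 p) w)
    (g p (ch M (rd p) • Om 2 p) w)
  rw [abs_sub_comm] at a1 a2
  have a3 := abs_nonneg (g p eT w)
  have a4 := abs_nonneg (g p (ch M (rd p) • Om 2 p) w)
  have a5 := a1.trans (t2.trans x1)
  have a6 := a2.trans (u2.trans x1)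
  refine ⟨fin _ ?_, fin _ ?_, by linarith only [t1, i0], by linarith only [u1, i0],
    by linarith only [v1, i0], fun k => ?_, fun k => ?_⟩
  · linarith only [d1 p w l1 l2 gc, abs_of_nonneg w3, x4]
  · have b1 := le_max_left 0 (-g p (φ (rd p) • n0 p) w)
    have b2 := le_max_right 0 (-g p (φ (rd p) • n0 p) w)
    have b3 := (abs_le.1 (v2.trans x1)).2
    rcases le_max_iff.1 (d2 p w l1 l2 gc) with k | k
    · linarith only [k, a4, a5, b1, x4]
    rcases le_max_iff.1 k with k | k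
    · linarith only [k, a3, a4, b2, b3, x4]
    · linarith only [k, a3, a4, b1, w3, x4]
  · have b1 := big _ _ k u3
    have b2 : rd p < 3 * M := not_le.1 fun b => by
      rcases le_max_iff.1 (d4 p w l1 l2 gc) with k | k
      · linarith only [k, b1, a5, x4]
      · linarith only [k, b1, a3, x4, mul_nonneg (sub_nonneg.2 b) z]
    have b3 : HasDerivAt (ch M) 0 (rd p) := (hasDerivAt_const _ 1).congr_of_eventuallyEq
      ((gt_mem_nhds b2).mono fun r k => ch_one hM k.le)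
    rw [pi_smul fl_om (ch_cd M) r0, pi_om r0, b3.deriv] at u4
    simp only [mul_zero, zero_mul, add_zero, sub_zero] at u4
    exact u4.trans (by linarith only [mul_nonneg (mul_nonneg i0.le e0) (sq_nonneg ‖w‖)])
  · have b1 := big _ _ k ((neg_le_abs _).trans v3)
    have b2 : 4 ≤ c * ‖w‖ := by linarith only [b1, a3, a4]
    have b3 : 4 ≤ ‖w‖ := b2.trans (mul_le_of_le_one_left z c1.le)
    have b4 : 16 ≤ c * ‖w‖ ^ 2 := by linarith only [mul_le_mul b2 b3 (by norm_num) x4]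
    have hw : w ≠ 0 := norm_pos_iff.1 (by linarith only [b3])
    rcases lt_max_iff.1 (d5 p w l1 l2 hw) with k | k
    · rcases lt_max_iff.1 k with k | k
      · exact absurd (abs_le.2 ⟨by linarith only [g2, x3, w1, b4], gc⟩) k.not_ge
      · have : max |gin M a p eT w| |gin M a p (ch M (rd p) • Om 2 p) w| ≤ c * ‖w‖ :=
          max_le (by linarith only [a5, b1, a4, x4]) (by linarith only [a6, b1, a3, x4])
        exact absurd (by linarith only [mul_le_mul_of_nonneg_right this z]) k.not_ge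
    · linarith only [(abs_le.1 (v4.trans x2)).1, k, x5]

end Vale.Agent.P354NK
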