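import Vale.Agent.P354NK.Km
import Vale.Agent.P354XA.Near

/-!
NW2: the clauses kerr, far, nul, near of the initial velocity.
-/

open scoped ContDiff
open Set Filter Topology Matrix

noncomputable section

namespace Vale.Agent.P354NK

open Vale.Agent.P354 (Bilin)
open Vale.Agent.P354n (R4 mink)
open Vale.Agent.P354I (Sg rm rp)
open Vale.Agent.P354R (Del Met)
open Vale.Agent.P354RC (bs sum_bs)
open Vale.Agent.P354XE (Tw xs rd gin dr dq kf eT Om Lo)
open Vale.Agent.P354XA (rd_cd rd_fd dr_Lo Lo_fst dr_eq Sg_eq Sg_ge gin_bil met_bil dr_Om Om_fst)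
open Vale.Agent.P354XV (Jet jet Lv Sig Spl)
open Vale.Agent.P354YJ (Sg_pos gin_lin gin_met open_rd)
open Vale.Agent.P354YN
open Vale.Agent.P354YA
open Vale.Agent.P354YT (Pm al bp qm tb Del_pos al_out al_in lo1_eq qm_pos qm_mul tb_d)
open Real (smoothTransition)

variable {M a : ℝ} {p u v w t : R4} {c : Pm} {g : Tw} {D : Set R4} {B : R4 → R4 → ℝ}

/-! ### Linear algebra -/

theorem shp_spec (hD : IsOpen D) (m : Met g D) (hp : p ∈ D) {f : R4 → ℝ} (l : IsLinearMap ℝ f)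
    (v : R4) : g p (shp (jet 3 g p) f) v = f v := by
  rw [← ip_jet hD m hp 3, P354YN.ip, shp, co_vc, dotProduct_mulVec, ← mulVec_transpose,
    g0_symm hD m hp, mulVec_mulVec, mul_nonsing_inv _ (g0_det hD m hp 3).isUnit, one_mulVec]
  conv_rhs => rw [← sum_bs v]
  exact ((map_sum (IsLinearMap.mk' _ l) _ _).trans (Finset.sum_congr rfl fun i _ =>
    (l.map_smul _ _).trans (by rw [co_eq, smul_eq_mul, mul_comm]))).symm

theorem eq_of (m : Met g D) (hp : p ∈ D) (h : ∀ v, g p u v = g p w v) : u = w := by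
  refine sub_eq_zero.1 (m.nondeg p hp _ fun v => ?_)
  rw [sub_eq_add_neg, ← neg_one_smul ℝ w, (met_bil m hp).add_left, (met_bil m hp).smul_left, h]
  ring

theorem perp_nonneg (s : Sig g p) (ht : g p t t < 0) (h : g p u t = 0) : 0 ≤ g p u u := by
  obtain ⟨L, -, -, e⟩ := s
  rw [e] at ht h ⊢
  generalize L u = x at *
  generalize L t = y at *
  obtain ⟨x0, x1, x2, x3⟩ := x
  obtain ⟨t0, t1, t2, t3⟩ := y
  simp only [mink, P354n.cu, P354n.cv, P354n.c1, P354n.c2] at ht h ⊢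
  have k : 0 < t0 * t0 := by nlinarith [mul_self_nonneg t1, mul_self_nonneg t2, mul_self_nonneg t3]
  refine nonneg_of_mul_nonneg_left (b := t0 * t0) ?_ k
  have e1 : (x0 * t0) ^ 2 = (x1 * t1 + x2 * t2 + x3 * t3) ^ 2 := by
    rw [show x0 * t0 = x1 * t1 + x2 * t2 + x3 * t3 by linarith]
  have e2 := mul_le_mul_of_nonneg_left (show t1 * t1 + t2 * t2 + t3 * t3 ≤ t0 * t0 by linarith)
    (show 0 ≤ x1 * x1 + x2 * x2 + x3 * x3 by
      linarith [mul_self_nonneg x1, mul_self_nonneg x2, mul_self_nonneg x3])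
  linarith [sq_nonneg (x1 * t2 - x2 * t1), sq_nonneg (x1 * t3 - x3 * t1),
    sq_nonneg (x2 * t3 - x3 * t2)]

/-- The normal of a spacelike hyperplane is timelike. -/
theorem nrm_neg (hB : Bilin (g p)) (hs : ∀ a b, g p a b = g p b a) (s : Sig g p)
    (h : ∀ v ≠ 0, g p t v = 0 → 0 < g p v v) (h0 : t ≠ 0) : g p t t < 0 := by
  obtain ⟨L, l, i, e⟩ := s
  obtain ⟨x, hx⟩ := LinearMap.injective_iff_surjective.1 (show Function.Injective
    (IsLinearMap.mk' L l) from i) (1, 0)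
  have k : g p x x = -1 := by
    rw [e, show L x = (1, 0) from hx]; simp [mink, P354n.cu, P354n.cv, P354n.c1, P354n.c2]
  by_contra! n
  have n1 : 0 < g p t t := n.lt_of_ne fun o => (h t h0 o.symm).ne o
  have e1 : g p t (g p t t • x + (-g p t x) • t) = 0 := by
    rw [hB.add_right, hB.smul_right, hB.smul_right]; ring
  have e2 : g p (g p t t • x + (-g p t x) • t) (g p t t • x + (-g p t x) • t) =
      -(g p t t * (g p t t + g p t x ^ 2)) := by
    simp only [hB.add_left, hB.add_right, hB.smul_left, hB.smul_right, hs x t, k]; ring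
  have e3 : 0 < g p t t * (g p t t + g p t x ^ 2) := by positivity
  rcases eq_or_ne (g p t t • x + (-g p t x) • t) 0 with o | o
  · rw [o, ← zero_smul ℝ (0 : R4), hB.smul_left] at e2; linarith
  · linarith [h _ o e1]

theorem lin_dS (c : Pm) (p : R4) : IsLinearMap ℝ (dS c p) :=
  ⟨fun x y => by simp only [dS, dr_eq, P354XA.ip, Prod.fst_add, Prod.snd_add]; ring,
    fun s x => by simp only [dS, dr_eq, P354XA.ip, Prod.smul_fst, Prod.smul_snd, smul_eq_mul]; ring⟩

section gen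
variable (hD : IsOpen D) (m : Met g D) (hp : p ∈ D)
include hD m hp

theorem n0_spec (v : R4) : g p (P354YA.n0 c p (jet 3 g p)) v = -dS c p v := by
  rw [P354YA.n0, ← neg_one_smul ℝ, (met_bil m hp).smul_left, shp_spec hD m hp (lin_dS c p)]; ring

variable (h0 : g p (P354YA.n0 c p (jet 3 g p)) (P354YA.n0 c p (jet 3 g p)) < 0)
include h0

theorem n1_spec : g p (n1 c p (jet 3 g p)) (n1 c p (jet 3 g p)) = -1 ∧
    ∃ s > (0 : ℝ), n1 c p (jet 3 g p) = s • P354YA.n0 c p (jet 3 g p) := by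
  have k := Real.sqrt_pos.2 (neg_pos.2 h0)
  have k2 := Real.mul_self_sqrt (neg_pos.2 h0).le
  rw [n1, ip_jet hD m hp]
  refine ⟨?_, _, inv_pos.2 k, rfl⟩
  rw [(met_bil m hp).smul_left, (met_bil m hp).smul_right]
  field_simp
  linarith

theorem u1_spec : g p (u1 c p (jet 3 g p)) (n1 c p (jet 3 g p)) = 0 ∧
    g p (u1 c p (jet 3 g p)) (u1 c p (jet 3 g p)) = g p (u0 c p (jet 3 g p)) (u0 c p (jet 3 g p)) +
      g p (u0 c p (jet 3 g p)) (n1 c p (jet 3 g p)) ^ 2 := by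
  have B := met_bil m hp
  simp only [u1, ip_jet hD m hp, B.add_left, B.add_right, B.smul_left, B.smul_right,
    (n1_spec hD m hp h0).1, m.symm p hp (n1 ..) (u0 ..)]
  constructor <;> ring

theorem u2_nul (s : Sig g p) : g p (u2 c p (jet 3 g p)) (u2 c p (jet 3 g p)) = 0 := by
  have B := met_bil m hp
  have k := (n1_spec hD m hp h0).1
  have k1 := (u1_spec hD m hp h0).1
  have k2 := Real.mul_self_sqrt (perp_nonneg s (by rw [k]; norm_num) k1)
  simp only [u2, ip_jet hD m hp, B.add_left, B.add_right, B.smul_left, B.smul_right, k, k1,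
    m.symm p hp (n1 ..) (u1 ..)]
  linarith

theorem u2_fix (h1 : g p (u0 c p (jet 3 g p)) (u0 c p (jet 3 g p)) = 0)
    (h2 : g p (u0 c p (jet 3 g p)) (P354YA.n0 c p (jet 3 g p)) ≤ 0) :
    u2 c p (jet 3 g p) = u0 c p (jet 3 g p) := by
  obtain ⟨s, s0, e⟩ := (n1_spec hD m hp h0).2
  have k : g p (u0 c p (jet 3 g p)) (n1 c p (jet 3 g p)) ≤ 0 := by
    rw [e, (met_bil m hp).smul_right]; exact mul_nonpos_of_nonneg_of_nonpos s0.le h2
  rw [u2, ip_jet hD m hp, (u1_spec hD m hp h0).2, h1, zero_add, Real.sqrt_sq_eq_abs,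
    abs_of_nonpos k, u1, ip_jet hD m hp, neg_smul, add_neg_cancel_right]

end gen

/-! ### The natural fields -/

theorem Yv_out (h : Ok2 c) (k : 1 / 2 ≤ dd c p) (x : A3) : Yv c p x = lJ x := by
  obtain ⟨e1, e2, e3⟩ := al_out (h.1.xi_out (r := rd p) (by unfold dd at k; linarith))
  simp [Yv, ca, cl, cn, e1, e2, e3]

theorem Yv_in (h : Ok2 c) (k : dd c p ≤ -(1 / 2)) (x : A3) : Yv c p x = nJ x := by
  obtain ⟨e1, e2, e3⟩ := al_in (h.1.xi_in (r := rd p) (by unfold dd at k; linarith))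
  simp [Yv, ca, cl, cn, e1, e2, e3]

theorem dS_Lo (h : |c.a| < c.M) (k : rp c.M c.a < rd p) (o : 0 < rd p) :
    0 < dS c p (Lo c.M c.a p) := by
  rw [dS, dr_Lo o.ne', Lo_fst, lo1_eq (Del_pos h k).ne']
  linarith [qm_pos h k]

theorem dS_No (o : 0 < rd p) : dS c p (P354YT.No p) = qm c.M c.a (rd p) + 1 := by
  have := kf_No c.a o
  have e : dq p (P354YT.No p) = 0 := by
    simp only [P354XA.dq_eq, P354YT.No, Prod.smul_fst, Prod.smul_snd, smul_eq_mul]; ring
  rw [kf, e, show (P354YT.No p).1 = 1 from rfl] at this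
  rw [dS, show dr p (P354YT.No p) = -1 by linarith, show (P354YT.No p).1 = 1 from rfl]; ring

theorem W0_near (F : FLD) (h : Ok2 c) (l : Lv g D) (hp : p ∈ D) (u : (p, jet 3 g p) ∈ UW c)
    (k : dd c p ≤ 5 / 4) :
    W0 c (p, jet 3 g p) = Yv c p (c.M, jet 3 g p, P354YA.n0 c p (jet 3 g p)) := by
  rcases le_or_gt (dd c p) (3 / 4) with b | b
  · simp [W0, tp_one b]
  obtain ⟨-, -, h0, u3, -⟩ := u
  have f := F c.M g D _ p l hp (u3.resolve_left (by simp only; linarith)).1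
  rw [ip_jet l.isOpen l.met hp] at h0
  have B := met_bil l.met hp
  have e : u0 c p (jet 3 g p) = lN c.M g (P354YA.n0 c p (jet 3 g p)) p := by
    rw [u0, smoothTransition.one_of_one_le (by linarith)]; simp [lN]
  have q : g p (lN c.M g (P354YA.n0 c p (jet 3 g p)) p) (P354YA.n0 c p (jet 3 g p)) ≤ 0 := by
    have f1 := f.fut
    have f2 := inv_pos.2 f.pos
    generalize P354YA.n0 c p (jet 3 g p) = t at *
    have f3 := perp_nonneg (u := g p (nN c.M g t p) t • lN c.M g t p +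
      (-g p (lN c.M g t p) t) • nN c.M g t p) (l.sig p hp) h0 (by
        rw [B.add_left, B.smul_left, B.smul_left]; ring)
    simp only [B.add_left, B.add_right, B.smul_left, B.smul_right, f.ll, f.nn, f.ln,
      l.met.symm p hp (nN ..) (lN ..)] at f1 f3
    by_contra! n
    linarith [mul_pos (mul_pos n (show 0 < -g p (nN c.M g t p) t by linarith)) f2]
  rw [W0, u2_fix l.isOpen l.met hp h0 (by rw [e, f.ll]) (e ▸ q), e, Yv_out h (by linarith)]
  exact Convex.combo_self (by ring) _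

theorem w_near (F : NF) (h : Ok2 c) (g D p) (l : Lv g D) (hp : p ∈ D) (u : (p, jet 3 g p) ∈ UW c)
    (k : dd c p ≤ 5 / 4) : (c.M, jet 3 g p, W0 c (p, jet 3 g p)) ∈ U3 ∧
      W0 c (p, jet 3 g p) = Yv c p (c.M, jet 3 g p, W0 c (p, jet 3 g p)) := by
  have e := W0_near F.2.2.1 h l hp u k
  obtain ⟨u3, z⟩ := u.2.2.2.1.resolve_left (by simp only; linarith)
  have f := F.2.2.1 c.M g D _ p l hp u3
  have B := met_bil l.met hp
  rw [ip_jet l.isOpen l.met hp] at z
  obtain ⟨e1, e2, e3⟩ := coef (c.xi (rd p))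
  obtain ⟨a1, -, a2, a3, a4, -⟩ := f.ind (W0 c (p, jet 3 g p)) (by
    refine (neg_mix e1 e2 z (neg_lt_zero.2 (inv_pos.2 f.pos))).trans_eq' ?_
    have f1 := f.ll
    have f2 := f.nn
    have f3 := f.ln
    simp only [e, Yv, lN, nN, B.add_left, B.add_right, B.smul_right, ← e3, ca, cl, cn,
      l.met.symm p hp (nJ _) (lJ _)] at f1 f2 f3 ⊢
    rw [f1, f2, f3]
    ring)
  refine ⟨a1, e.trans ?_⟩
  simp only [lN, nN, zN] at a2 a3 a4
  rw [Yv, Yv, a2, a3, a4]

theorem w_nul (F : NF) (h : Ok2 c) (g D p) (l : Lv g D) (hp : p ∈ D) (u : (p, jet 3 g p) ∈ UW c)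
    (k : 1 / 2 ≤ |dd c p|) : g p (W0 c (p, jet 3 g p)) (W0 c (p, jet 3 g p)) = 0 := by
  rcases le_or_gt (dd c p) (5 / 4) with b | b
  · have f := F.2.2.1 c.M g D _ p l hp (u.2.2.2.1.resolve_left (by simp only; linarith)).1
    rw [W0_near F.2.2.1 h l hp u b]
    rcases le_abs.1 k with k | k
    · rw [Yv_out h k]; exact f.ll
    · rw [Yv_in h (by linarith)]; exact f.nn
  · have h0 := u.2.2.1
    rw [ip_jet l.isOpen l.met hp] at h0
    simpa [W0, tp_zero (show 1 ≤ dd c p by linarith)] using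
      u2_nul l.isOpen l.met hp h0 (l.sig p hp)

theorem w_far (h : Ok2 c) (g D) (l : Lv g D) (p) (hp : p ∈ D) (k : 2 ≤ dd c p)
    (s : Spl g (fun x => x.1 - tb c.M c.a (rd x)) p) : W0 c (p, jet 3 g p) = Lo c.M c.a p ↔
      ∀ v, g p (Lo c.M c.a p) v = gin c.M c.a p (Lo c.M c.a p) v := by
  obtain ⟨r, o⟩ := h.out (p := p) (by linarith)
  have B := met_bil l.met hp
  have n := n0_spec (c := c) l.isOpen l.met hp
  have d := (hasFDerivAt_fst (𝕜 := ℝ) (p := p)).sub ((tb_d h.1.sub r).comp_hasFDerivAt p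
    ((rd_cd (n := 1) o.ne').differentiableAt one_ne_zero).hasFDerivAt)
  have L0 := dS_Lo h.1.sub r o
  have h0 := nrm_neg (t := P354YA.n0 c p (jet 3 g p)) B (l.met.symm p hp) (l.sig p hp)
    (fun v hv e => s v hv (by
      rw [show fderiv ℝ (fun x => x.1 - tb c.M c.a (rd x)) p = _ from d.fderiv]
      rw [n, dS, ← rd_fd o.ne'] at e
      simpa using neg_eq_zero.1 e)) fun e => by
        have := n (Lo c.M c.a p)
        rw [e, ← zero_smul ℝ (0 : R4), B.smul_left] at this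
        linarith
  have e : W0 c (p, jet 3 g p) = u2 c p (jet 3 g p) := by
    simp [W0, tp_zero (show 1 ≤ dd c p by linarith)]
  have e0 : ∀ v, g p (u0 c p (jet 3 g p)) v = gin c.M c.a p (Lo c.M c.a p) v := fun v => by
    rw [u0, smoothTransition.zero_of_nonpos (by linarith), zero_smul, zero_add, sub_zero, one_smul,
      shp_spec l.isOpen l.met hp (gin_lin ..)]
  have LL := gin_LL (M := c.M) (a := c.a) o (Del_pos h.1.sub r).ne'
  rw [e]
  refine ⟨fun q => ?_, fun q => ?_⟩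
  · obtain ⟨x, x0, e1⟩ := (n1_spec l.isOpen l.met hp h0).2
    have z := u2_nul l.isOpen l.met hp h0 (l.sig p hp)
    obtain ⟨y, hy⟩ : ∃ y : ℝ, ∀ v, g p (u2 c p (jet 3 g p)) v =
        gin c.M c.a p (Lo c.M c.a p) v + y * dS c p v := by
      obtain ⟨y, hy⟩ : ∃ y : ℝ, u2 c p (jet 3 g p) = u0 c p (jet 3 g p) + y • n1 c p (jet 3 g p) :=
        ⟨_, by rw [u2, u1, add_assoc, ← add_smul]⟩
      exact ⟨-(y * x), fun v => by rw [hy, B.add_left, B.smul_left, e0, e1, B.smul_left, n]; ring⟩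
    rw [hy, q, LL, zero_add] at z
    intro v
    have := hy v
    rwa [q, (mul_eq_zero.1 z).resolve_right L0.ne', zero_mul, add_zero] at this
  · have e1 : u0 c p (jet 3 g p) = Lo c.M c.a p := eq_of l.met hp fun v => by rw [e0, q]
    rw [u2_fix l.isOpen l.met hp h0 (by rw [e0, e1, LL]) (by
      rw [l.met.symm p hp, n, e1]; linarith), e1]

/-! ### Kerr -/

theorem kerr_n0 (h : |c.a| < c.M) (k : rp c.M c.a < rd p) (o : 0 < rd p) :
    gin c.M c.a p (P354YA.n0 c p (jet 3 (gin c.M c.a) p))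
      (P354YA.n0 c p (jet 3 (gin c.M c.a) p)) < 0 := by
  have D := Del_pos h k
  have S0 := Sg_pos c.a o
  have B := gin_bil c.M c.a p
  have n := n0_spec (c := c) open_rd (gin_met c.M c.a) o
  have q := qm_mul D.ne'
  have e : P354YA.n0 c p (jet 3 (gin c.M c.a) p) =
      ((rd p ^ 2 + c.a ^ 2) / (2 * Sg c.a (rd p) (xs p))) • (Lo c.M c.a p + P354YT.No p) +
      (-(rd p ^ 2 + c.a ^ 2 - Sg c.a (rd p) (xs p)) / Sg c.a (rd p) (xs p)) • eT +
      (-c.a / Sg c.a (rd p) (xs p)) • Om 2 p := eq_of (gin_met c.M c.a) o fun v => by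
    have k1 := gin_P (M := c.M) (a := c.a) o.ne' v
    simp only [n, B.add_left, B.smul_left, gin_L o D.ne', gin_No o.ne', dS, qm]
    rw [neg_div (Sg c.a (rd p) (xs p)) c.a, neg_mul (c.a / _), div_mul_eq_mul_div c.a,
      eq_sub_of_add_eq' k1, gin_T]
    have : Del c.M c.a (rd p) = rd p ^ 2 - 2 * c.M * rd p + c.a ^ 2 := rfl
    generalize Sg c.a (rd p) (xs p) = S at *
    field_simp
    rw [this]
    ring
  have d1 : dS c p (Lo c.M c.a p) = qm c.M c.a (rd p) + 1 := by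
    rw [dS, dr_Lo o.ne', Lo_fst, lo1_eq D.ne']; ring
  have d2 := dS_No (c := c) o
  have d3 : dS c p eT = 1 := by rw [dS, (kf_T c.a p).2]; simp [eT]
  have d4 : dS c p (Om 2 p) = 0 := by rw [dS, dr_Om, Om_fst]; ring
  have l := lin_dS c p
  rw [n, e]
  simp only [l.map_add, l.map_smul, d1, d2, d3, d4, smul_eq_mul]
  have q0 := qm_pos h k
  have s0 := Sg_ge c.a p
  generalize Sg c.a (rd p) (xs p) = S at *
  have : 0 < ((rd p ^ 2 + c.a ^ 2) * qm c.M c.a (rd p) + S) / S := by positivity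
  refine neg_lt_zero.2 (this.trans_eq ?_)
  field_simp
  ring

theorem w_kerr (F : NF) (h : Ok2 c) (p) (k : rp c.M c.a < rd p) :
    (p, jet 3 (gin c.M c.a) p) ∈ UW c ∧ W0 c (p, jet 3 (gin c.M c.a) p) = c.X p := by
  obtain ⟨-, m0, m1, -⟩ := P354XA.hor h.1.sub
  have o : 0 < rd p := by linarith
  have D := Del_pos h.1.sub k
  have m := gin_met c.M c.a
  have B := gin_bil c.M c.a p
  have n := n0_spec (c := c) open_rd m o
  have h0 := kerr_n0 h.1.sub k o
  have L0 := dS_Lo h.1.sub k o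
  have LL := gin_LL (M := c.M) (a := c.a) o D.ne'
  have Ln : gin c.M c.a p (Lo c.M c.a p) (P354YA.n0 c p (jet 3 (gin c.M c.a) p)) < 0 := by
    rw [P354YJ.gin_symm, n]; linarith
  obtain ⟨k1, -, -, -, k2, k3, k4, -⟩ := F.2.2.2.2 c.M c.M c.a 1 p
    (P354YA.n0 c p (jet 3 (gin c.M c.a) p)) one_pos (by ring) h.1.sub k (by
      rw [P354YJ.gin_symm, n, (lin_dS c p).map_add, no_eq, dS_No o]
      linarith [qm_pos h.1.sub k])
  simp only [lN, nN, zN, inv_one, one_smul, no_eq] at k2 k3 k4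
  have e : u0 c p (jet 3 (gin c.M c.a) p) = Lo c.M c.a p := by
    rw [u0, k2, eq_of m o (shp_spec open_rd m o (gin_lin c.M c.a p (Lo c.M c.a p)))]
    exact Convex.combo_self (by ring) _
  have y : Yv c p (c.M, jet 3 (gin c.M c.a) p, P354YA.n0 c p (jet 3 (gin c.M c.a) p)) = c.X p := by
    rw [Yv, k2, k3, k4, X_eq]
  refine ⟨⟨k, k1.1.2.1, by rwa [ip_jet open_rd m o], Or.inr ⟨k1, ?_⟩, Or.inr ?_⟩, ?_⟩
  · rw [ip_jet open_rd m o, k2, k3, k4, gin_LN_T o D.ne']; norm_num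
  · obtain ⟨s, s0, e1⟩ := (n1_spec open_rd m o h0).2
    rw [ip_jet open_rd m o, (u1_spec open_rd m o h0).2, e, LL, zero_add, e1, B.smul_right]
    exact sq_pos_of_neg (mul_neg_of_pos_of_neg s0 Ln)
  · rw [W0, u2_fix open_rd m o h0 (by rw [e, LL]) (e ▸ Ln.le), e, y]
    rcases le_or_gt (dd c p) (3 / 4) with b | b
    · simp [tp_one b]
    · rw [← y, Yv_out h (by linarith), k2]
      exact Convex.combo_self (by ring) _

end Vale.Agent.P354NK
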